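import Crest.Agent.N76.II.A.Core

/-! # Row 76, part A: `TI` and `TII` imply the single scale theorem `SS` (helper14). -/

set_option autoImplicit false

open MeasureTheory Set Metric
open scoped RealInnerProductSpace

namespace Crest.Agent.N76.II.A

open Crest.Agent.N76.Red Crest.Agent.N76.G

variable {n : ℕ}

theorem exists_rot (U : V n ≃ₗᵢ[ℝ] V n) (H : L2 n) : ∃ H' : L2 n, ‖H'‖ = ‖H‖ ∧
    (H' =ᵐ[volume] fun ξ => H (U.symm ξ)) ∧
    ∀ z : V n × ℝ, inner ℂ (pt (U z.1, z.2)) H' = inner ℂ (pt z) H := by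
  have hm := U.symm.measurePreserving
  refine ⟨Lp.compMeasurePreserving U.symm hm H, Lp.norm_compMeasurePreserving H hm,
    Lp.coeFn_compMeasurePreserving H hm, fun z => ?_⟩
  have e1 := co_eq one_pos z.2 (Lp.compMeasurePreserving U.symm hm H) (U z.1, 0)
  have e2 := co_eq one_pos z.2 H (z.1, 0)
  simp only [co] at e1 e2
  simp only [pt]
  rw [e1, e2, ← hm.integral_comp U.symm.toHomeomorph.measurableEmbedding
    fun ξ => (starRingEnd ℂ) (gamF 1 z.2 (z.1, 0) ξ) * H ξ]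
  refine integral_congr_ae ?_
  filter_upwards [Lp.coeFn_compMeasurePreserving H hm] with ξ h
  rw [h, Function.comp_apply]
  congr 2
  simp only [gamF, sub_zero, LinearIsometryEquiv.norm_map]
  rw [← U.inner_map_map z.1 (U.symm ξ), U.apply_symm_apply]

/-- `TII` for an arbitrary normal -/
theorem tii_rot {d : ℕ} {R u w Λ : ℝ} {N : ℕ} {M : ℝ}
    (h : ∀ X : Finset (V (d + 1) × ℝ), Graph R X → X.card ≤ N → ∀ (c₀ : ℝ) (Y : Finset ℝ),
      (Y.card : ℝ) ≤ M → (∀ z ∈ X, ∃ y ∈ Y, |z.1 0 + 2 * c₀ * z.2 - y| ≤ u) →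
      ∀ H : L2 (d + 1), Supp H → (∀ᵐ ξ : V (d + 1), w < |ξ 0 - c₀| → H ξ = 0) →
      en X H ≤ Λ * ‖H‖ ^ 2)
    (X : Finset (V (d + 1) × ℝ)) (hX : Graph R X) (hN : X.card ≤ N) (ν : V (d + 1)) (c : ℝ)
    (Y : Finset ℝ) (hν : ‖ν‖ = 1) (hY : (Y.card : ℝ) ≤ M)
    (hXY : ∀ z ∈ X, ∃ y ∈ Y, |⟪ν, z.1⟫ + 2 * c * z.2 - y| ≤ u) (H : L2 (d + 1)) (hH : Supp H)
    (hw : ∀ᵐ ξ : V (d + 1), w < |⟪ν, ξ⟫ - c| → H ξ = 0) : en X H ≤ Λ * ‖H‖ ^ 2 := by
  classical
  set e : V (d + 1) := EuclideanSpace.single 0 1 with he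
  obtain ⟨U, hU⟩ : ∃ U : V (d + 1) ≃ₗᵢ[ℝ] V (d + 1), U ν = e :=
    ⟨_, Submodule.reflection_sub (by simp [hν, he])⟩
  have hUx : ∀ x, U x 0 = ⟪ν, x⟫ := fun x => by
    rw [← U.inner_map_map, hU, he, EuclideanSpace.inner_single_left]; simp
  obtain ⟨H', h1, h2, h3⟩ := exists_rot U H
  have hinj : Function.Injective fun z : V (d + 1) × ℝ => (U z.1, z.2) := fun z z' hz => by
    simp only [Prod.mk.injEq, EmbeddingLike.apply_eq_iff_eq] at hz
    exact Prod.ext hz.1 hz.2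
  have hq := U.symm.measurePreserving.quasiMeasurePreserving
  have key := h (X.image fun z => (U z.1, z.2)) ⟨?_, ?_⟩
    (by rwa [Finset.card_image_of_injective _ hinj]) c Y hY ?_ H' ?_ ?_
  · rw [en, Finset.sum_image fun a _ b _ hab => hinj hab, h1] at key
    simpa only [h3, en] using key
  · intro z₁ hz₁
    obtain ⟨z, hz, rfl⟩ := Finset.mem_image.1 hz₁
    simpa using hX.1 z hz
  · intro z₁ hz₁ z₂ hz₂ hne
    obtain ⟨z, hz, rfl⟩ := Finset.mem_image.1 hz₁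
    obtain ⟨z', hz', rfl⟩ := Finset.mem_image.1 hz₂
    rw [← map_sub, U.norm_map]
    exact hX.2 z hz z' hz' fun h => hne (by rw [h])
  · intro z₁ hz₁
    obtain ⟨z, hz, rfl⟩ := Finset.mem_image.1 hz₁
    simpa only [hUx] using hXY z hz
  · filter_upwards [h2, hq.ae hH] with ξ h4 h5 h6
    rw [h4]; exact h5 (by simpa using h6)
  · filter_upwards [h2, hq.ae hw] with ξ h4 h5 h6
    rw [h4]; refine h5 ?_
    rwa [← hUx, U.apply_symm_apply]

theorem en_le_card (X : Finset (V n × ℝ)) (H : L2 n) : en X H ≤ X.card * ‖H‖ ^ 2 := by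
  rw [en, ← nsmul_eq_mul, ← Finset.sum_const]
  refine Finset.sum_le_sum fun z _ => pow_le_pow_left₀ (norm_nonneg _) ?_ 2
  simpa [pt, norm_gam one_pos] using norm_inner_le_norm (𝕜 := ℂ) (pt z) H


end Crest.Agent.N76.II.A

namespace Crest.Agent.N76.II

open Crest.Agent.N76.Red Crest.Agent.N76.G A


end Crest.Agent.N76.II
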