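import Crest.Agent.N76.Red.Pack
import Crest.Agent.N76.II.Defs

-- ▼ part N76/II/A/Geo
section

/-! # Row 76, part A: counting in slabs, nets, clustering, maximal families (helper14). -/

set_option autoImplicit false

open Set Metric
open scoped RealInnerProductSpace

namespace Crest.Agent.N76.II.A

open Crest.Agent.N76.Red

variable {n : ℕ}

/-- `1`-separated finite sets -/
def Sep (s : Finset (V n)) : Prop := ∀ c ∈ s, ∀ d ∈ s, c ≠ d → 1 ≤ ‖c - d‖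

theorem Sep.mono {s t : Finset (V n)} (h : Sep t) (hst : s ⊆ t) : Sep s :=
  fun c hc d hd => h c (hst hc) d (hst hd)

/-- separated points in an intersection of orthogonal slabs: translation trick -/
theorem card_slabs {ι : Type*} [Fintype ι] {e : ι → V n} (he : Orthonormal ℝ e) (s : Finset (V n))
    (hs : Sep s) {r w : ℝ} (hr : 0 ≤ r) (hw : 0 ≤ w) (hb : ∀ x ∈ s, ‖x‖ ≤ r) (y : ι → ℝ)
    (hy : ∀ x ∈ s, ∀ i, |⟪e i, x⟫ - y i| ≤ w) (m : ℕ) :
    (m : ℝ) ^ Fintype.card ι * s.card ≤ (2 * (r + Fintype.card ι * (m * (2 * w + 1))) + 1) ^ n := by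
  classical
  set φ : (ι → ℕ) × V n → V n := fun p => p.2 + ∑ i, ((p.1 i : ℝ) * (2 * w + 1)) • e i with hφ
  set D := (Fintype.piFinset fun _ : ι => Finset.range m) ×ˢ s with hD
  have hin : ∀ (p : (ι → ℕ) × V n) (i : ι), ⟪e i, φ p⟫ = ⟪e i, p.2⟫ + p.1 i * (2 * w + 1) := by
    intro p i
    simp only [hφ, inner_add_right]
    rw [he.inner_right_fintype]
  have hsep : ∀ p ∈ D, ∀ q ∈ D, p ≠ q → 1 ≤ ‖φ p - φ q‖ := by
    intro p hp q hq hne
    have hp2 := (Finset.mem_product.1 hp).2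
    have hq2 := (Finset.mem_product.1 hq).2
    by_cases h1 : p.1 = q.1
    · have h2 : p.2 ≠ q.2 := fun h => hne (Prod.ext h1 h)
      have : φ p - φ q = p.2 - q.2 := by simp only [hφ, h1]; abel
      rw [this]; exact hs _ hp2 _ hq2 h2
    · obtain ⟨i, hi⟩ := Function.ne_iff.1 h1
      have h3 : |⟪e i, φ p - φ q⟫| ≤ ‖φ p - φ q‖ := by
        simpa [he.1 i] using abs_real_inner_le_norm (e i) (φ p - φ q)
      refine le_trans ?_ h3
      rw [inner_sub_right, hin, hin]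
      have h4 := abs_le.1 (hy _ hp2 i)
      have h5 := abs_le.1 (hy _ hq2 i)
      rcases lt_or_gt_of_ne hi with h6 | h6
      · have : (p.1 i : ℝ) + 1 ≤ q.1 i := by exact_mod_cast h6
        rw [le_abs]; right; nlinarith
      · have : (q.1 i : ℝ) + 1 ≤ p.1 i := by exact_mod_cast h6
        rw [le_abs]; left; nlinarith
  have hinj : Set.InjOn φ D := by
    intro p hp q hq he'
    by_contra hne
    have := hsep p hp q hq hne
    rw [he', sub_self, norm_zero] at this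
    linarith
  have h := card_le_of_sep (D.image φ) 0 (r := r + Fintype.card ι * (m * (2 * w + 1)))
    (by positivity) ?_ ?_
  · rw [Finset.card_image_of_injOn hinj, hD, Finset.card_product, Fintype.card_piFinset] at h
    simpa using h
  · intro c hc
    obtain ⟨p, hp, rfl⟩ := Finset.mem_image.1 hc
    rw [sub_zero]
    refine (norm_add_le _ _).trans (add_le_add (hb _ (Finset.mem_product.1 hp).2) ?_)
    refine (norm_sum_le _ _).trans ?_
    rw [← nsmul_eq_mul, ← Finset.card_univ, ← Finset.sum_const]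
    refine Finset.sum_le_sum fun i _ => ?_
    have h1 := Finset.mem_range.1 (Fintype.mem_piFinset.1 (Finset.mem_product.1 hp).1 i)
    have h2 : (p.1 i : ℝ) ≤ m := by exact_mod_cast h1.le
    rw [norm_smul, he.1 i, mul_one, Real.norm_of_nonneg (by positivity)]
    gcongr
  · intro c hc d hd hne
    obtain ⟨p, hp, rfl⟩ := Finset.mem_image.1 hc
    obtain ⟨q, hq, rfl⟩ := Finset.mem_image.1 hd
    exact hsep p hp q hq fun h => hne (by rw [h])

theorem card_slabs' {ι : Type*} [Fintype ι] {e : ι → V n} (he : Orthonormal ℝ e)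
    (s : Finset (V n)) (hs : Sep s) {r w : ℝ} (hr : 1 ≤ r) (hw : 0 ≤ w) (hwr : 2 * w + 1 ≤ r)
    (hb : ∀ x ∈ s, ‖x‖ ≤ r) (y : ι → ℝ) (hy : ∀ x ∈ s, ∀ i, |⟪e i, x⟫ - y i| ≤ w) :
    (r / (2 * w + 1)) ^ Fintype.card ι * s.card ≤ ((4 * Fintype.card ι + 3) * r) ^ n := by
  have h := card_slabs he s hs (by linarith) hw hb y hy ⌈r / (2 * w + 1)⌉₊
  have h0 : 0 < 2 * w + 1 := by linarith
  have h1 := Nat.le_ceil (r / (2 * w + 1))
  have h2 : (⌈r / (2 * w + 1)⌉₊ : ℝ) * (2 * w + 1) ≤ 2 * r := by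
    have := (Nat.ceil_lt_add_one (by positivity : 0 ≤ r / (2 * w + 1))).le
    calc _ ≤ (r / (2 * w + 1) + 1) * (2 * w + 1) := by gcongr
      _ = r + (2 * w + 1) := by field_simp
      _ ≤ _ := by linarith
  refine le_trans (by gcongr) (h.trans ?_)
  have h3 : (0 : ℝ) ≤ Fintype.card ι := Nat.cast_nonneg _
  gcongr
  nlinarith [mul_le_mul_of_nonneg_left h2 h3]

/-- one slab -/
theorem card_slab (s : Finset (V n)) (hs : Sep s) {e : V n} (he : ‖e‖ = 1) {r w y : ℝ}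
    (hr : 1 ≤ r) (hw : 0 ≤ w) (hb : ∀ x ∈ s, ‖x‖ ≤ r) (hy : ∀ x ∈ s, |⟪e, x⟫ - y| ≤ w) :
    (s.card : ℝ) ≤ 7 ^ n * r ^ n * ((2 * w + 1) / r) := by
  have hr0 : 0 < r := by linarith
  rcases le_or_gt (2 * w + 1) r with h | h
  · have ho : Orthonormal ℝ fun _ : Unit => e := by
      simp [he]
    have := card_slabs' ho s hs hr hw h hb (fun _ => y) fun x hx _ => hy x hx
    simp only [Fintype.card_unique, pow_one, Nat.cast_one] at this
    rw [← mul_pow, ← mul_div_assoc, le_div_iff₀ hr0]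
    rw [div_mul_eq_mul_div, div_le_iff₀ (by linarith)] at this
    norm_num at this
    linarith
  · have h1 := card_le_of_sep s 0 hr0.le (fun c hc => by simpa using hb c hc) hs
    have h2 : 1 ≤ (2 * w + 1) / r := (one_le_div hr0).2 h.le
    calc (s.card : ℝ) ≤ (7 * r) ^ n := h1.trans (by gcongr; linarith)
      _ = 7 ^ n * r ^ n * 1 := by rw [mul_pow, mul_one]
      _ ≤ _ := by gcongr

/-- two orthogonal slabs of half width at most `1` -/
theorem card_two_slabs (s : Finset (V n)) (hs : Sep s) {e e' : V n} (he : ‖e‖ = 1)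
    (he' : ‖e'‖ = 1) (hee : ⟪e, e'⟫ = 0) {r y y' : ℝ} (hr : 3 ≤ r) (hb : ∀ x ∈ s, ‖x‖ ≤ r)
    (hy : ∀ x ∈ s, |⟪e, x⟫ - y| ≤ 1 ∧ |⟪e', x⟫ - y'| ≤ 1) :
    r ^ 2 * s.card ≤ 9 * 11 ^ n * r ^ n := by
  have ho : Orthonormal ℝ ![e, e'] := by
    rw [orthonormal_iff_ite]
    intro i j
    fin_cases i <;> fin_cases j <;>
      simp [he, he', hee, real_inner_comm e e']
  have := card_slabs' ho s hs (w := 1) (by linarith) zero_le_one (by linarith) hb ![y, y']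
    fun x hx i => by fin_cases i <;> simp [(hy x hx).1, (hy x hx).2]
  simp only [Fintype.card_fin] at this
  rw [mul_pow] at this
  norm_num at this
  rw [div_pow] at this
  linarith

/-- maximal families for an abstract symmetric relation -/
theorem exists_maximal_family {α : Type*} (P : α → Prop) (far : α → α → Prop)
    (hsymm : ∀ a b, far a b → far b a) (hirr : ∀ a, P a → ¬ far a a) (J : ℝ)
    (hJ : ∀ F : Finset α, (∀ a ∈ F, P a) → (∀ a ∈ F, ∀ b ∈ F, a ≠ b → far a b) →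
      (F.card : ℝ) ≤ J) :
    ∃ F : Finset α, (∀ a ∈ F, P a) ∧ (∀ a ∈ F, ∀ b ∈ F, a ≠ b → far a b) ∧
      ∀ a, P a → ∃ b ∈ F, ¬ far a b := by
  classical
  set Q : ℕ → Prop := fun k => ∃ F : Finset α, (∀ a ∈ F, P a) ∧
    (∀ a ∈ F, ∀ b ∈ F, a ≠ b → far a b) ∧ F.card = k with hQ
  obtain ⟨B, hB⟩ := exists_nat_ge J
  have hle : ∀ k, Q k → k ≤ B := by
    rintro k ⟨F, h1, h2, rfl⟩
    exact_mod_cast (hJ F h1 h2).trans hB
  have h0 : Q 0 := ⟨∅, by simp, by simp, rfl⟩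
  obtain ⟨F, h1, h2, h3⟩ : Q (Nat.findGreatest Q B) := Nat.findGreatest_spec (Nat.zero_le B) h0
  refine ⟨F, h1, h2, fun x hx => ?_⟩
  by_contra hcon
  push Not at hcon
  have hxF : x ∉ F := fun h => hirr x hx (hcon x h)
  have hQ' : Q (F.card + 1) := by
    refine ⟨insert x F, ?_, ?_, Finset.card_insert_of_notMem hxF⟩
    · intro y hy
      rcases Finset.mem_insert.1 hy with rfl | hy
      exacts [hx, h1 y hy]
    · intro c hc d hd hcd
      rcases Finset.mem_insert.1 hc with rfl | hc' <;>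
        rcases Finset.mem_insert.1 hd with rfl | hd'
      · exact absurd rfl hcd
      · exact hcon d hd'
      · exact hsymm _ _ (hcon c hc')
      · exact h2 c hc' d hd' hcd
  have := Nat.le_findGreatest (hle _ hQ') hQ'
  omega

/-- a bounded set has a finite separated net -/
theorem exists_net (S : Set (V n)) {r : ℝ} (hr : 0 ≤ r) (hS : ∀ x ∈ S, ‖x‖ ≤ r) :
    ∃ Y : Finset (V n), (∀ y ∈ Y, y ∈ S) ∧ Sep Y ∧ ∀ x ∈ S, ∃ y ∈ Y, ‖x - y‖ ≤ 1 := by
  obtain ⟨Y, h1, h2, h3⟩ := exists_maximal_family (fun x => x ∈ S) (fun a b => 1 ≤ ‖a - b‖)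
    (fun a b h => by rwa [norm_sub_rev]) (fun a _ => by simp) ((2 * r + 1) ^ n)
    fun F hF hF' => card_le_of_sep F 0 hr (fun c hc => by simpa using hS c (hF c hc)) hF'
  refine ⟨Y, h1, h2, fun x hx => ?_⟩
  obtain ⟨y, hy, h⟩ := h3 x hx
  exact ⟨y, hy, (not_le.1 h).le⟩

/-- many large subsets with small intersections cannot exist -/
theorem card_family_le {α β : Type*} [DecidableEq β] (X : Finset β) (F : Finset α)
    (A : α → Finset β) (hA : ∀ a ∈ F, A a ⊆ X) {N d : ℝ} (hN : (X.card : ℝ) ≤ N) (hd : 0 < d)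
    (h1 : ∀ a ∈ F, d ≤ (A a).card)
    (h2 : ∀ a ∈ F, ∀ b ∈ F, a ≠ b → ((A a ∩ A b).card : ℝ) ≤ d ^ 2 / (4 * N)) :
    (F.card : ℝ) ≤ 2 * N / d := by
  classical
  rcases F.eq_empty_or_nonempty with rfl | ⟨a₀, ha₀⟩
  · have : 0 ≤ N := (Nat.cast_nonneg _).trans hN
    simp only [Finset.card_empty, Nat.cast_zero]; positivity
  have hN0 : 0 < N := hd.trans_le ((h1 a₀ ha₀).trans
    (le_trans (by exact_mod_cast Finset.card_le_card (hA a₀ ha₀)) hN))
  set f : β → ℝ := fun x => ∑ a ∈ F, if x ∈ A a then 1 else 0 with hf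
  set S : ℝ := ∑ a ∈ F, ((A a).card : ℝ) with hS
  have e1 : ∑ x ∈ X, f x = S := by
    simp only [hf, hS]
    rw [Finset.sum_comm]
    refine Finset.sum_congr rfl fun a ha => ?_
    rw [Finset.sum_boole, Finset.filter_mem_eq_inter, Finset.inter_eq_right.2 (hA a ha)]
  have e2 : ∑ x ∈ X, f x ^ 2 = ∑ a ∈ F, ∑ b ∈ F, ((A a ∩ A b).card : ℝ) := by
    simp only [hf, sq, Finset.sum_mul_sum]
    rw [Finset.sum_comm]
    refine Finset.sum_congr rfl fun a ha => ?_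
    rw [Finset.sum_comm]
    refine Finset.sum_congr rfl fun b _ => ?_
    have : ∀ x, ((if x ∈ A a then (1 : ℝ) else 0) * if x ∈ A b then 1 else 0) =
        if x ∈ A a ∩ A b then 1 else 0 := by
      intro x; by_cases h1 : x ∈ A a <;> by_cases h2 : x ∈ A b <;> simp [h1, h2]
    simp only [this]
    rw [Finset.sum_boole, Finset.filter_mem_eq_inter,
      Finset.inter_eq_right.2 (Finset.inter_subset_left.trans (hA a ha))]
  have e3 : ∑ a ∈ F, ∑ b ∈ F, ((A a ∩ A b).card : ℝ) ≤ S + F.card ^ 2 * (d ^ 2 / (4 * N)) := by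
    have : ∀ a ∈ F, ∑ b ∈ F, ((A a ∩ A b).card : ℝ) ≤ (A a).card + F.card * (d ^ 2 / (4 * N)) := by
      intro a ha
      rw [← Finset.add_sum_erase F _ ha, Finset.inter_self]
      gcongr
      calc ∑ b ∈ F.erase a, ((A a ∩ A b).card : ℝ) ≤ ∑ _b ∈ F.erase a, d ^ 2 / (4 * N) :=
            Finset.sum_le_sum fun b hb => h2 a ha b (Finset.mem_of_mem_erase hb)
              (Finset.ne_of_mem_erase hb).symm
        _ ≤ _ := by
            rw [Finset.sum_const, nsmul_eq_mul]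
            gcongr
            exact Finset.erase_subset a F
    refine (Finset.sum_le_sum this).trans (le_of_eq ?_)
    rw [Finset.sum_add_distrib, Finset.sum_const, nsmul_eq_mul]; ring
  have e4 : S ^ 2 ≤ N * (S + F.card ^ 2 * (d ^ 2 / (4 * N))) := by
    rw [← e1]
    refine (sq_sum_le_card_mul_sum_sq (s := X) (f := f)).trans ?_
    rw [e2, e1]
    exact mul_le_mul hN e3 (Finset.sum_nonneg fun a _ => Finset.sum_nonneg fun b _ =>
      Nat.cast_nonneg _) hN0.le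
  have e5 : F.card * d ≤ S := by
    rw [← nsmul_eq_mul, ← Finset.sum_const]; exact Finset.sum_le_sum h1
  have e6 : N * (F.card ^ 2 * (d ^ 2 / (4 * N))) = (F.card * d) ^ 2 / 4 := by field_simp
  have h0 : 0 ≤ F.card * d := by positivity
  have e7 : (F.card * d) ^ 2 ≤ S ^ 2 := by gcongr
  have hS0 : 0 < S := lt_of_lt_of_le (mul_pos (by exact_mod_cast Finset.card_pos.2 ⟨a₀, ha₀⟩) hd) e5
  have e8 : S ≤ 2 * N := by
    by_contra hc
    push Not at hc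
    nlinarith
  rw [le_div_iff₀ hd]; linarith

/-- single linkage clustering -/
theorem exists_clusters {α : Type*} (F : Finset α) (rel : ℝ → α → α → Prop)
    (hrefl : ∀ a, rel 0 a a) (hsymm : ∀ θ a b, rel θ a b → rel θ b a)
    (htri : ∀ θ θ' a b c, rel θ a b → rel θ' b c → rel (θ + θ') a c)
    (hmono : ∀ θ θ' a b, θ ≤ θ' → rel θ a b → rel θ' a b) {th : ℝ} (hth : 0 ≤ th) :
    ∃ f : α → α, (∀ a ∈ F, f a ∈ F ∧ rel (F.card * th) a (f a)) ∧
      ∀ a ∈ F, ∀ b ∈ F, rel th a b → f a = f b := by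
  classical
  let G : SimpleGraph F :=
    { Adj := fun a b => a ≠ b ∧ rel th a b
      symm := ⟨fun a b h => ⟨h.1.symm, hsymm _ _ _ h.2⟩⟩
      loopless := ⟨fun a h => h.1 rfl⟩ }
  have hw : ∀ (a b : F) (p : G.Walk a b), rel (p.length * th) a b := by
    intro a b p
    induction p with
    | nil => simpa using hrefl _
    | cons h p ih =>
      have := htri _ _ _ _ _ h.2 ih
      refine hmono _ _ _ _ (le_of_eq ?_) this
      simp only [SimpleGraph.Walk.length_cons]; push_cast; ring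
  refine ⟨fun a => if h : a ∈ F then ((G.connectedComponentMk ⟨a, h⟩).out : F) else a,
    fun a ha => ?_, fun a ha b hb hab => ?_⟩
  · simp only [dif_pos ha]
    refine ⟨Finset.coe_mem _, ?_⟩
    have hr : G.Reachable ⟨a, ha⟩ (G.connectedComponentMk ⟨a, ha⟩).out :=
      SimpleGraph.ConnectedComponent.exact (Quot.out_eq _).symm
    obtain ⟨p, hp⟩ := hr.exists_isPath
    refine hmono _ _ _ _ ?_ (hw _ _ p)
    have := hp.length_lt
    rw [Fintype.card_coe] at this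
    gcongr
  · simp only [dif_pos ha, dif_pos hb]
    congr 2
    by_cases h : (⟨a, ha⟩ : F) = ⟨b, hb⟩
    · rw [h]
    · exact SimpleGraph.ConnectedComponent.connectedComponentMk_eq_of_adj ⟨h, hab⟩

end Crest.Agent.N76.II.A
end

-- ▼ part N76/II/A/Planks

/-! # Row 76, part A: geometry of planks and slabs (helper14). -/

set_option autoImplicit false

open Set Metric
open scoped RealInnerProductSpace

namespace Crest.Agent.N76.II.A

open Crest.Agent.N76.Red Crest.Agent.N76.G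

variable {n : ℕ}

/-- parameters `(ν, c, y)` of a plank -/
abbrev Pm (n : ℕ) := V n × ℝ × ℝ

/-- the normals `(ν, c)` are `θ`-close up to sign -/
def rel (θ : ℝ) (p q : Pm n) : Prop :=
  ∃ σ : ℝ, (σ = 1 ∨ σ = -1) ∧ ‖p.1 - σ • q.1‖ ≤ θ ∧ |p.2.1 - σ * q.2.1| ≤ θ

theorem rel_refl (p : Pm n) : rel 0 p p := ⟨1, Or.inl rfl, by simp, by simp⟩

theorem rel_symm (θ : ℝ) (p q : Pm n) (h : rel θ p q) : rel θ q p := by
  obtain ⟨σ, hσ, h1, h2⟩ := h
  refine ⟨σ, hσ, ?_, ?_⟩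
  · rcases hσ with rfl | rfl
    · rw [norm_sub_rev]; simpa using h1
    · simpa [add_comm] using h1
  · rcases hσ with rfl | rfl
    · rw [abs_sub_comm]; simpa using h2
    · simpa [add_comm] using h2

theorem rel_tri (θ θ' : ℝ) (p q r : Pm n) (h : rel θ p q) (h' : rel θ' q r) :
    rel (θ + θ') p r := by
  obtain ⟨σ, hσ, h1, h2⟩ := h
  obtain ⟨τ, hτ, h3, h4⟩ := h'
  have ha : |σ| = 1 := by rcases hσ with rfl | rfl <;> simp
  refine ⟨σ * τ, by rcases hσ with rfl | rfl <;> rcases hτ with rfl | rfl <;> simp, ?_, ?_⟩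
  · have : p.1 - (σ * τ) • r.1 = (p.1 - σ • q.1) + σ • (q.1 - τ • r.1) := by
      rw [smul_sub, smul_smul]; abel
    rw [this]
    refine (norm_add_le _ _).trans (add_le_add h1 ?_)
    rw [norm_smul, Real.norm_eq_abs, ha, one_mul]; exact h3
  · have : p.2.1 - σ * τ * r.2.1 = (p.2.1 - σ * q.2.1) + σ * (q.2.1 - τ * r.2.1) := by ring
    rw [this]
    refine (abs_add_le _ _).trans (add_le_add h2 ?_)
    rw [abs_mul, ha, one_mul]; exact h4

theorem rel_mono (θ θ' : ℝ) (p q : Pm n) (hθ : θ ≤ θ') (h : rel θ p q) : rel θ' p q := by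
  obtain ⟨σ, hσ, h1, h2⟩ := h
  exact ⟨σ, hσ, h1.trans hθ, h2.trans hθ⟩

/-- the plank with parameters `p` -/
def pk (p : Pm n) (u : ℝ) : Set (V n × ℝ) := plank p.1 p.2.1 p.2.2 u

/-- the dual slab -/
def sl (p : Pm n) (w : ℝ) : Set (V n) := {ξ | |⟪p.1, ξ⟫ - p.2.1| ≤ w}

theorem pk_mono (p : Pm n) {u u' : ℝ} (h : u ≤ u') : pk p u ⊆ pk p u' :=
  fun _ hz => le_trans hz h

theorem sl_mono (p : Pm n) {u u' : ℝ} (h : u ≤ u') : sl p u ⊆ sl p u' :=
  fun _ hz => le_trans hz h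

theorem measurableSet_sl (p : Pm n) (w : ℝ) : MeasurableSet (sl p w) :=
  measurableSet_le (by fun_prop) measurable_const

theorem abs_inner_le {v x : V n} {θ r : ℝ} (hv : ‖v‖ ≤ θ) (hx : ‖x‖ ≤ r) : |⟪v, x⟫| ≤ θ * r :=
  (abs_real_inner_le_norm v x).trans
    (mul_le_mul hv hx (norm_nonneg _) ((norm_nonneg _).trans hv))

theorem sl_of_rel {p q : Pm n} {θ w : ℝ} (h : rel θ p q) {ξ : V n} (hξ : ‖ξ‖ ≤ 1)
    (hp : ξ ∈ sl p w) : ξ ∈ sl q (w + 2 * θ) := by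
  obtain ⟨σ, hσ, h1, h2⟩ := h
  have h3 := abs_le.1 (abs_inner_le h1 hξ)
  rw [inner_sub_left, real_inner_smul_left] at h3
  have h4 := abs_le.1 (show |⟪p.1, ξ⟫ - p.2.1| ≤ w from hp)
  have h5 := abs_le.1 h2
  change |⟪q.1, ξ⟫ - q.2.1| ≤ w + 2 * θ
  rw [abs_le]
  rcases hσ with rfl | rfl <;> constructor <;> linarith [h3.1, h3.2, h4.1, h4.2, h5.1, h5.2]

theorem near_of_rel {p q : Pm n} {θ u R : ℝ} (h : rel θ p q) {z : V n × ℝ} (hz : ‖z.1‖ ≤ R ∧ |z.2| ≤ R)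
    (hp : z ∈ pk p u) : ∃ σ : ℝ, (σ = 1 ∨ σ = -1) ∧
      |⟪q.1, z.1⟫ + 2 * q.2.1 * z.2 - σ * p.2.2| ≤ u + 3 * θ * R := by
  obtain ⟨σ, hσ, h1, h2⟩ := h
  refine ⟨σ, hσ, ?_⟩
  have h3 := abs_le.1 (abs_inner_le h1 hz.1)
  rw [inner_sub_left, real_inner_smul_left] at h3
  have h4 := abs_le.1 (show |⟪p.1, z.1⟫ + 2 * p.2.1 * z.2 - p.2.2| ≤ u from hp)
  have h5 : |(p.2.1 - σ * q.2.1) * z.2| ≤ θ * R := by
    rw [abs_mul]; exact mul_le_mul h2 hz.2 (abs_nonneg _) ((abs_nonneg _).trans h2)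
  have h6 := abs_le.1 h5
  rw [abs_le]
  rcases hσ with rfl | rfl <;> constructor <;> nlinarith [h3.1, h3.2, h4.1, h4.2, h6.1, h6.2]

theorem pk_of_rel {p q : Pm n} {θ u R : ℝ} (h : rel θ p q) {z z₀ : V n × ℝ}
    (hz : ‖z.1‖ ≤ R ∧ |z.2| ≤ R) (hz₀ : ‖z₀.1‖ ≤ R ∧ |z₀.2| ≤ R) (hp : z ∈ pk p u)
    (hp₀ : z₀ ∈ pk p u) (hq₀ : z₀ ∈ pk q u) : z ∈ pk q (3 * u + 6 * θ * R) := by
  obtain ⟨σ, hσ, h1, h2⟩ := h
  have h3 := abs_le.1 (abs_inner_le h1 hz.1)
  have h3' := abs_le.1 (abs_inner_le h1 hz₀.1)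
  rw [inner_sub_left, real_inner_smul_left] at h3 h3'
  have h4 := abs_le.1 (show |⟪p.1, z.1⟫ + 2 * p.2.1 * z.2 - p.2.2| ≤ u from hp)
  have h4' := abs_le.1 (show |⟪p.1, z₀.1⟫ + 2 * p.2.1 * z₀.2 - p.2.2| ≤ u from hp₀)
  have h4'' := abs_le.1 (show |⟪q.1, z₀.1⟫ + 2 * q.2.1 * z₀.2 - q.2.2| ≤ u from hq₀)
  have h5 : ∀ t : ℝ, |t| ≤ R → |(p.2.1 - σ * q.2.1) * t| ≤ θ * R := fun t ht => by
    rw [abs_mul]; exact mul_le_mul h2 ht (abs_nonneg _) ((abs_nonneg _).trans h2)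
  have h6 := abs_le.1 (h5 _ hz.2)
  have h6' := abs_le.1 (h5 _ hz₀.2)
  change |⟪q.1, z.1⟫ + 2 * q.2.1 * z.2 - q.2.2| ≤ _
  rw [abs_le]
  rcases hσ with rfl | rfl <;> constructor <;>
    nlinarith [h3.1, h3.2, h4.1, h4.2, h6.1, h6.2, h3'.1, h3'.2, h4'.1, h4'.2, h6'.1, h6'.2,
      h4''.1, h4''.2]

theorem Graph.mono {R : ℝ} {X Y : Finset (V n × ℝ)} (h : Graph R X) (hY : Y ⊆ X) : Graph R Y :=
  ⟨fun z hz => h.1 z (hY hz), fun z hz z' hz' => h.2 z (hY hz) z' (hY hz')⟩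

theorem graph_proj {R : ℝ} {X : Finset (V n × ℝ)} (h : Graph R X) :
    ∃ s : Finset (V n), s.card = X.card ∧ Sep s ∧ ∀ x ∈ s, ∃ z ∈ X, z.1 = x := by
  classical
  have hinj : Set.InjOn Prod.fst (X : Set (V n × ℝ)) := by
    intro z hz z' hz' he
    by_contra hne
    have := h.2 z hz z' hz' hne
    rw [he, sub_self, norm_zero] at this
    linarith
  refine ⟨X.image Prod.fst, Finset.card_image_of_injOn hinj, ?_, fun x hx => ?_⟩
  · intro y hy y' hy' hne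
    obtain ⟨z, hz, rfl⟩ := Finset.mem_image.1 hy
    obtain ⟨z', hz', rfl⟩ := Finset.mem_image.1 hy'
    exact h.2 z hz z' hz' fun h => hne (by rw [h])
  · simpa using hx

theorem graph_card {R : ℝ} (hR : 1 ≤ R) {X : Finset (V n × ℝ)} (h : Graph R X) :
    (X.card : ℝ) ≤ (3 * R) ^ n := by
  obtain ⟨s, h1, h2, h3⟩ := graph_proj h
  rw [← h1]
  refine (card_le_of_sep s 0 (r := R) (by linarith) (fun x hx => ?_) h2).trans ?_
  · obtain ⟨z, hz, rfl⟩ := h3 x hx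
    simpa using (h.1 z hz).1
  · gcongr; linarith

theorem two_planks_aux {R u κ : ℝ} (hR : 1 ≤ R) (hκ : 0 < κ) (hκ1 : κ ≤ 1) (hu : 1 ≤ u)
    {X : Finset (V n × ℝ)} (hX : Graph R X) {p q : Pm n} (hp : ‖p.1‖ = 1) (hq : ‖q.1‖ = 1)
    (hc : |p.2.1| ≤ |q.2.1|) (hc2 : |q.2.1| ≤ 2) (hpq : ∀ z ∈ X, z ∈ pk p u ∧ z ∈ pk q u)
    (hcard : 7 ^ n * R ^ n * (5 * u / κ / R) < X.card) : rel (2 * κ) p q := by
  obtain ⟨β, hβ, hβc⟩ : ∃ β : ℝ, |β| ≤ 1 ∧ p.2.1 = β * q.2.1 := by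
    rcases eq_or_ne q.2.1 0 with h0 | h0
    · refine ⟨0, by simp, ?_⟩
      rw [h0, abs_zero] at hc
      simpa using abs_nonpos_iff.1 hc
    · exact ⟨p.2.1 / q.2.1, by rw [abs_div]; exact div_le_one_of_le₀ hc (abs_nonneg _),
        by field_simp⟩
  set v : V n := p.1 - β • q.1 with hv
  have hvκ : ‖v‖ < κ := by
    by_contra hcon
    push Not at hcon
    have hv0 : 0 < ‖v‖ := hκ.trans_le hcon
    obtain ⟨s, h1, h2, h3⟩ := graph_proj hX
    have h4 := card_slab s h2 (e := ‖v‖⁻¹ • v) (by rw [norm_smul]; simp [hv0.ne'])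
      (w := 2 * u / κ) (y := ‖v‖⁻¹ * (p.2.2 - β * q.2.2)) hR (by positivity)
      (fun x hx => by obtain ⟨z, hz, rfl⟩ := h3 x hx; exact (hX.1 z hz).1) fun x hx => by
        obtain ⟨z, hz, rfl⟩ := h3 x hx
        rw [real_inner_smul_left, ← mul_sub, abs_mul, abs_of_pos (inv_pos.2 hv0),
          inv_mul_le_iff₀ hv0]
        have e : ⟪v, z.1⟫ - (p.2.2 - β * q.2.2) = (⟪p.1, z.1⟫ + 2 * p.2.1 * z.2 - p.2.2) -
            β * (⟪q.1, z.1⟫ + 2 * q.2.1 * z.2 - q.2.2) := by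
          rw [hv, inner_sub_left, real_inner_smul_left, hβc]; ring
        rw [e]
        refine (abs_sub _ _).trans ?_
        have h5 : |⟪p.1, z.1⟫ + 2 * p.2.1 * z.2 - p.2.2| ≤ u := (hpq z hz).1
        have h6 : |⟪q.1, z.1⟫ + 2 * q.2.1 * z.2 - q.2.2| ≤ u := (hpq z hz).2
        have h7 : |β * (⟪q.1, z.1⟫ + 2 * q.2.1 * z.2 - q.2.2)| ≤ 1 * u := by
          rw [abs_mul]; gcongr
        have h8 : κ * (2 * u / κ) = 2 * u := by field_simp
        calc _ ≤ κ * (2 * u / κ) := by rw [h8]; linarith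
          _ ≤ _ := by gcongr
    rw [h1] at h4
    have h8 : 2 * (2 * u / κ) + 1 ≤ 5 * u / κ := by
      have : 1 ≤ u / κ := (one_le_div hκ).2 (hκ1.trans hu)
      calc _ = 4 * (u / κ) + 1 := by ring
        _ ≤ 5 * (u / κ) := by linarith
        _ = _ := by ring
    have : (7 : ℝ) ^ n * R ^ n * ((2 * (2 * u / κ) + 1) / R) ≤ 7 ^ n * R ^ n * (5 * u / κ / R) := by
      gcongr
    linarith
  have hβ1 : 1 - |β| ≤ κ := by
    have := norm_sub_norm_le p.1 (β • q.1)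
    rw [hp, norm_smul, hq, mul_one, Real.norm_eq_abs] at this
    linarith
  obtain ⟨σ, hσ, hσβ⟩ : ∃ σ : ℝ, (σ = 1 ∨ σ = -1) ∧ |β - σ| ≤ κ := by
    rcases le_total 0 β with h | h
    · rw [abs_of_nonneg h] at hβ hβ1
      exact ⟨1, Or.inl rfl, abs_le.2 ⟨by linarith, by linarith⟩⟩
    · rw [abs_of_nonpos h] at hβ hβ1
      exact ⟨-1, Or.inr rfl, abs_le.2 ⟨by linarith, by linarith⟩⟩
  refine ⟨σ, hσ, ?_, ?_⟩
  · have : p.1 - σ • q.1 = v + (β - σ) • q.1 := by rw [hv, sub_smul]; abel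
    rw [this]
    refine (norm_add_le _ _).trans ?_
    rw [norm_smul, hq, Real.norm_eq_abs]; linarith
  · rw [hβc, ← sub_mul, abs_mul, mul_comm]; gcongr

/-- two planks with many common points have close normals -/
theorem two_planks {R u κ : ℝ} (hR : 1 ≤ R) (hκ : 0 < κ) (hκ1 : κ ≤ 1) (hu : 1 ≤ u)
    {X : Finset (V n × ℝ)} (hX : Graph R X) {p q : Pm n} (hp : ‖p.1‖ = 1) (hq : ‖q.1‖ = 1)
    (hc : |p.2.1| ≤ 2) (hc2 : |q.2.1| ≤ 2) (hpq : ∀ z ∈ X, z ∈ pk p u ∧ z ∈ pk q u)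
    (hcard : 7 ^ n * R ^ n * (5 * u / κ / R) < X.card) : rel (2 * κ) p q := by
  rcases le_total |p.2.1| |q.2.1| with h | h
  · exact two_planks_aux hR hκ hκ1 hu hX hp hq h hc2 hpq hcard
  · exact rel_symm _ _ _ (two_planks_aux hR hκ hκ1 hu hX hq hp h hc
      (fun z hz => (hpq z hz).symm) hcard)

/-- two transversal slabs meet in a thin set -/
theorem two_slabs {p q : Pm n} (hp : ‖p.1‖ = 1) (hq : ‖q.1‖ = 1) {th w s : ℝ} (hth : 0 < th)
    (hw : 4 * w ≤ th) (hs : 3 ≤ s) (hw1 : w * s ≤ 1) (hw2 : 12 * w * s ≤ th) (hpq : ¬ rel th p q)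
    (Y : Finset (V n)) (hY : Sep Y)
    (hY' : ∀ x ∈ Y, ‖x‖ ≤ s ∧ s⁻¹ • x ∈ sl p w ∧ s⁻¹ • x ∈ sl q w) :
    s ^ 2 * Y.card ≤ 9 * 11 ^ n * s ^ n := by
  rcases Y.eq_empty_or_nonempty with rfl | ⟨x₀, hx₀⟩
  · simp only [Finset.card_empty, Nat.cast_zero, mul_zero]; positivity
  have hs0 : 0 < s := by linarith
  have hfar : ∀ σ : ℝ, (σ = 1 ∨ σ = -1) → th / 4 < ‖p.1 - σ • q.1‖ := by
    intro σ hσ
    by_contra hcon
    push Not at hcon
    refine hpq ⟨σ, hσ, by linarith, ?_⟩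
    have h0 : ‖s⁻¹ • x₀‖ ≤ 1 := by
      rw [norm_smul, Real.norm_of_nonneg (inv_pos.2 hs0).le, inv_mul_le_iff₀ hs0, mul_one]
      exact (hY' x₀ hx₀).1
    have h3 := abs_le.1 (abs_inner_le hcon h0)
    rw [inner_sub_left, real_inner_smul_left] at h3
    have h4 := abs_le.1 (show |⟪p.1, s⁻¹ • x₀⟫ - p.2.1| ≤ w from (hY' x₀ hx₀).2.1)
    have h5 := abs_le.1 (show |⟪q.1, s⁻¹ • x₀⟫ - q.2.1| ≤ w from (hY' x₀ hx₀).2.2)
    rw [abs_le]
    rcases hσ with rfl | rfl <;> constructor <;> linarith [h3.1, h3.2, h4.1, h4.2, h5.1, h5.2]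
  set ρ : ℝ := ⟪p.1, q.1⟫ with hρ
  set v : V n := q.1 - ρ • p.1 with hv
  have hsq : ∀ σ : ℝ, ‖p.1 - σ • q.1‖ ^ 2 = 1 - 2 * σ * ρ + σ ^ 2 := fun σ => by
    rw [norm_sub_sq_real, norm_smul, real_inner_smul_right, hp, hq, mul_one, Real.norm_eq_abs,
      sq_abs]; ring
  have hv2 : ‖v‖ ^ 2 = 1 - ρ ^ 2 := by
    rw [hv, norm_sub_sq_real, norm_smul, real_inner_smul_right, hp, hq, mul_one, Real.norm_eq_abs,
      sq_abs, real_inner_comm]; ring
  have h1 : (th / 4) ^ 2 ≤ 2 - 2 * ρ := by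
    have := pow_le_pow_left₀ (by positivity) (hfar 1 (Or.inl rfl)).le 2
    rw [hsq] at this; linarith
  have h2 : (th / 4) ^ 2 ≤ 2 + 2 * ρ := by
    have := pow_le_pow_left₀ (by positivity) (hfar (-1) (Or.inr rfl)).le 2
    rw [hsq] at this; linarith
  have hvth : th / 6 ≤ ‖v‖ := by
    refine le_of_sq_le_sq ?_ (norm_nonneg _)
    rw [hv2]
    rcases le_total 0 ρ with h | h <;> nlinarith [sq_nonneg th]
  have hv0 : 0 < ‖v‖ := lt_of_lt_of_le (by positivity) hvth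
  have hw0 : 0 ≤ w := (abs_nonneg _).trans (hY' x₀ hx₀).2.1
  have hρ1 : |ρ| ≤ 1 := by simpa [hp, hq] using abs_real_inner_le_norm p.1 q.1
  refine card_two_slabs Y hY hp (e' := ‖v‖⁻¹ • v) (by rw [norm_smul]; simp [hv0.ne'])
    ?_ (y := s * p.2.1) (y' := ‖v‖⁻¹ * (s * (q.2.1 - ρ * p.2.1))) hs (fun x hx => (hY' x hx).1)
    fun x hx => ?_
  · rw [real_inner_smul_right, hv, inner_sub_right, real_inner_smul_right,
      real_inner_self_eq_norm_sq, hp]; ring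
  · have e : ∀ (a : V n) (c : ℝ), ⟪a, x⟫ - s * c = s * (⟪a, s⁻¹ • x⟫ - c) := fun a c => by
      rw [real_inner_smul_right]; field_simp
    have h4 : |⟪p.1, x⟫ - s * p.2.1| ≤ w * s := by
      rw [e, abs_mul, abs_of_pos hs0, mul_comm]; gcongr; exact (hY' x hx).2.1
    have h5 : |⟪q.1, x⟫ - s * q.2.1| ≤ w * s := by
      rw [e, abs_mul, abs_of_pos hs0, mul_comm]; gcongr; exact (hY' x hx).2.2
    refine ⟨h4.trans hw1, ?_⟩
    rw [real_inner_smul_left, ← mul_sub, abs_mul, abs_of_pos (inv_pos.2 hv0), inv_mul_le_iff₀ hv0]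
    have e2 : ⟪v, x⟫ - s * (q.2.1 - ρ * p.2.1) =
        (⟪q.1, x⟫ - s * q.2.1) - ρ * (⟪p.1, x⟫ - s * p.2.1) := by
      rw [hv, inner_sub_left, real_inner_smul_left]; ring
    rw [e2]
    refine (abs_sub _ _).trans ?_
    have h7 : |ρ * (⟪p.1, x⟫ - s * p.2.1)| ≤ 1 * (w * s) := by rw [abs_mul]; gcongr
    linarith

end Crest.Agent.N76.II.A
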